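import Mathlib.RingTheory.MvPowerSeries.Derivative
import Mathlib.RingTheory.MvPowerSeries.Substitution
import Mathlib.Algebra.MvPolynomial.PDeriv

/-!
# P217: chain rule and linear coefficients for substitutions
-/

namespace Vale.Agent.P217.NoIdeal

open MvPowerSeries Finset

variable {R : Type*} [CommRing R] {σ τ : Type*}

lemma pderiv_map {S : Type*} [CommRing S] (f : R →+* S) (i : σ) (g : MvPowerSeries σ R) :
    pderiv S i (MvPowerSeries.map f g) = MvPowerSeries.map f (pderiv R i g) := by
  ext n
  simp [coeff_pderiv, coeff_map]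

lemma coeff_single_one (f : MvPowerSeries σ R) (i : σ) :
    coeff (Finsupp.single i 1) f = constantCoeff (pderiv R i f) := by
  rw [← coeff_zero_eq_constantCoeff_apply, coeff_pderiv]
  simp

variable [Finite σ] {a : σ → MvPowerSeries τ R}

lemma constantCoeff_subst_eq (ha : ∀ i, constantCoeff (a i) = 0) (f : MvPowerSeries σ R) :
    constantCoeff (f.subst a) = constantCoeff f := by
  have hs : HasSubst a := hasSubst_of_constantCoeff_zero ha
  have h := constantCoeff_subst_eq_zero (f := f - C (constantCoeff f)) hs ha (by simp)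
  rwa [subst_sub hs, subst_C, map_sub, constantCoeff_C, sub_eq_zero] at h

lemma coeff_subst_eq_zero_of_high (ha : ∀ i, constantCoeff (a i) = 0) {g : MvPowerSeries σ R}
    {N : ℕ} (hg : ∀ d, Finsupp.degree d < N → coeff d g = 0) {e : τ →₀ ℕ}
    (he : Finsupp.degree e < N) : coeff e (g.subst a) = 0 := by
  refine coeff_of_lt_order ((Nat.cast_lt.2 he).trans_le ?_)
  have h1 : (1 : ℕ∞) ≤ ⨅ i, (a i).order :=
    le_iInf fun i => one_le_order_iff_constCoeff_eq_zero.2 (ha i)
  calc (N : ℕ∞) ≤ g.order := nat_le_order hg
    _ = 1 * g.order := (one_mul _).symm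
    _ ≤ (⨅ i, (a i).order) * g.order := by gcongr
    _ ≤ _ := le_order_subst (hasSubst_of_constantCoeff_zero ha) g

variable [Fintype σ]

omit [Finite σ] in
lemma pderiv_subst_coe (ha : ∀ i, constantCoeff (a i) = 0) (t : τ) (P : MvPolynomial σ R) :
    pderiv R t (subst a (P : MvPowerSeries σ R)) =
      ∑ i, subst a (pderiv R i (P : MvPowerSeries σ R)) * pderiv R t (a i) := by
  classical
  have hs : HasSubst a := hasSubst_of_constantCoeff_zero ha
  have h0 : subst a (0 : MvPowerSeries σ R) = 0 := by rw [← coe_substAlgHom hs]; exact map_zero _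
  have h1 : subst a (1 : MvPowerSeries σ R) = 1 := by rw [← coe_substAlgHom hs]; exact map_one _
  induction P using MvPolynomial.induction_on with
  | C r => simp [subst_C, h0]
  | add p q hp hq =>
    simp only [MvPolynomial.coe_add, subst_add hs, map_add, hp, hq, add_mul, sum_add_distrib]
  | mul_X p s hp =>
    simp only [MvPolynomial.coe_mul, MvPolynomial.coe_X, subst_mul hs, subst_X hs,
      Derivation.leibniz, smul_eq_mul, hp, subst_add hs, add_mul, sum_add_distrib]
    congr 1
    · rw [sum_eq_single s]
      · rw [pderiv_X_self, h1, mul_one]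
      · intro i _ hi
        rw [pderiv_X_of_ne hi.symm]
        simp [h0]
      · simp
    · rw [mul_sum]
      exact sum_congr rfl fun i _ => by ring

omit [Finite σ] in
/-- The chain rule. -/
theorem pderiv_subst (ha : ∀ i, constantCoeff (a i) = 0) (t : τ) (f : MvPowerSeries σ R) :
    pderiv R t (f.subst a) = ∑ i, (pderiv R i f).subst a * pderiv R t (a i) := by
  classical
  ext e
  have hs : HasSubst a := hasSubst_of_constantCoeff_zero ha
  set N := Finsupp.degree e + 2 with hN
  set g := f - (truncTotal N f : MvPowerSeries σ R) with hgdef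
  have hg : ∀ d, Finsupp.degree d < N → coeff d g = 0 := fun d hd => by
    simp [hgdef, coeff_truncTotal _ hd]
  have hf : f = (truncTotal N f : MvPowerSeries σ R) + g := (add_sub_cancel _ _).symm
  rw [hf, subst_add hs, map_add, pderiv_subst_coe ha]
  simp only [map_add, subst_add hs, add_mul, sum_add_distrib]
  congr 1
  have h1 : coeff e (pderiv R t (g.subst a)) = 0 := by
    rw [coeff_pderiv, coeff_subst_eq_zero_of_high ha hg (by rw [map_add, Finsupp.degree_single]; omega),
      zero_mul]
  have h2 : ∀ i, coeff e ((pderiv R i g).subst a * pderiv R t (a i)) = 0 := fun i => by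
    rw [coeff_mul]
    refine sum_eq_zero fun uv huv => ?_
    rw [coeff_subst_eq_zero_of_high ha (N := N - 1) (fun d hd => ?_), zero_mul]
    · have := congrArg Finsupp.degree (mem_antidiagonal.1 huv)
      rw [map_add] at this
      omega
    · rw [coeff_pderiv, hg _ (by rw [map_add, Finsupp.degree_single]; omega), zero_mul]
  rw [h1, map_sum, sum_eq_zero fun i _ => h2 i]

omit [Finite σ] in
/-- The linear coefficient of a substitution. -/
theorem coeff_single_subst (ha : ∀ i, constantCoeff (a i) = 0) (t : τ) (f : MvPowerSeries σ R) :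
    coeff (Finsupp.single t 1) (f.subst a) =
      ∑ i, coeff (Finsupp.single i 1) f * coeff (Finsupp.single t 1) (a i) := by
  simp only [coeff_single_one, pderiv_subst ha, map_sum, map_mul, constantCoeff_subst_eq ha]

end Vale.Agent.P217.NoIdeal
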