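import Vale.Agent.P217.NoIdeal.Chain
import Vale.Agent.P217.Targets

/-!
# P217: formal points of a law, additive series in several variables, inversion
-/

noncomputable section

namespace Vale.Agent.P217.NoIdeal

open MvPowerSeries Finset

variable {k : Type} [Field k] (F : FormalGroup k) {σ τ υ : Type}

/-- A series without constant term as a formal point. -/
def pt (f : MvPowerSeries σ k) (hf : constantCoeff f = 0) : F.Point σ :=
  ⟨f, show IsNilpotent (constantCoeff f) by rw [hf]; exact IsNilpotent.zero⟩

@[simp] lemma pt_val (f : MvPowerSeries σ k) (hf : constantCoeff f = 0) : (pt F f hf).val = f := rfl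

lemma pt_cc (x : F.Point σ) : constantCoeff x.val = 0 :=
  (show IsNilpotent (constantCoeff x.val) from x.2).eq_zero

/-- The variable `X i` as a point. -/
def ptX (i : σ) : F.Point σ := pt F (MvPowerSeries.X i) (constantCoeff_X i)

@[simp] lemma ptX_val (i : σ) : (ptX F i).val = MvPowerSeries.X i := rfl

variable [Finite σ]

/-- A series without constant term applied to points. -/
def sub (φ : MvPowerSeries σ k) (hφ : constantCoeff φ = 0) (a : σ → F.Point τ) : F.Point τ :=
  pt F (φ.subst fun i => (a i).val) (by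
    rw [constantCoeff_subst_eq (fun i => pt_cc F (a i)), hφ])

lemma subst_pair {ρ : Type} [Finite ρ] (a b : MvPowerSeries ρ k) (ha : constantCoeff a = 0)
    (hb : constantCoeff b = 0) (g : ρ → MvPowerSeries τ k) (hg : ∀ i, constantCoeff (g i) = 0) :
    (F.toPowerSeries.subst ![a, b]).subst g = F.toPowerSeries.subst ![a.subst g, b.subst g] := by
  rw [subst_comp_subst_apply (hasSubst_of_constantCoeff_zero fun i => by fin_cases i <;> simpa)
    (hasSubst_of_constantCoeff_zero hg)]
  congr 1
  funext i
  fin_cases i <;> rfl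

/-- A formal identity saying that `φ` is additive. -/
def Additive (φ : MvPowerSeries σ k) : Prop :=
  φ.subst (fun i => F.toPowerSeries.subst
      ![(MvPowerSeries.X (Sum.inl i) : MvPowerSeries (σ ⊕ σ) k), MvPowerSeries.X (Sum.inr i)]) =
    F.toPowerSeries.subst
      ![φ.subst fun i => (MvPowerSeries.X (Sum.inl i) : MvPowerSeries (σ ⊕ σ) k),
        φ.subst fun i => (MvPowerSeries.X (Sum.inr i) : MvPowerSeries (σ ⊕ σ) k)]

/-- An additive series is a homomorphism on points. -/
def subHom (φ : MvPowerSeries σ k) (hφ : constantCoeff φ = 0) (hadd : Additive F φ) :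
    (σ → F.Point τ) →+ F.Point τ where
  toFun := sub F φ hφ
  map_zero' := Subtype.ext (subst_zero_of_constantCoeff_zero hφ)
  map_add' a b := Subtype.ext (by
    have hg : ∀ s : σ ⊕ σ, constantCoeff (Sum.elim (fun i => (a i).val) (fun i => (b i).val) s)
        = 0 := fun s => by cases s <;> exact pt_cc F _
    have hX : ∀ i : σ, constantCoeff (F.toPowerSeries.subst
        ![(MvPowerSeries.X (Sum.inl i) : MvPowerSeries (σ ⊕ σ) k), MvPowerSeries.X (Sum.inr i)])
        = 0 := fun i => by
      rw [constantCoeff_subst_eq (fun j => by fin_cases j <;> simp), F.zero_constantCoeff]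
    have hl : ∀ (e : σ → σ ⊕ σ) (i : σ),
        constantCoeff (MvPowerSeries.X (e i) : MvPowerSeries (σ ⊕ σ) k) = 0 :=
      fun e i => constantCoeff_X _
    have h := congrArg
      (MvPowerSeries.subst (Sum.elim (fun i => (a i).val) (fun i => (b i).val))) hadd
    rw [subst_pair F _ _ ((constantCoeff_subst_eq (hl Sum.inl) φ).trans hφ)
      ((constantCoeff_subst_eq (hl Sum.inr) φ).trans hφ) _ hg,
      subst_comp_subst_apply (hasSubst_of_constantCoeff_zero hX)
        (hasSubst_of_constantCoeff_zero hg),
      subst_comp_subst_apply (hasSubst_of_constantCoeff_zero (hl Sum.inl))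
        (hasSubst_of_constantCoeff_zero hg),
      subst_comp_subst_apply (hasSubst_of_constantCoeff_zero (hl Sum.inr))
        (hasSubst_of_constantCoeff_zero hg)] at h
    simp only [subst_X (hasSubst_of_constantCoeff_zero hg), Sum.elim_inl, Sum.elim_inr] at h
    refine Eq.trans ?_ h
    simp only [sub, pt_val, FormalGroup.add_apply, Pi.add_apply]
    congr 1
    funext i
    rw [subst_pair F _ _ (constantCoeff_X _) (constantCoeff_X _) _ hg,
      subst_X (hasSubst_of_constantCoeff_zero hg), subst_X (hasSubst_of_constantCoeff_zero hg)]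
    rfl)

lemma x0_add_x1 :
    (ptX F (0 : Fin 2) + ptX F 1).val = F.toPowerSeries := by
  rw [FormalGroup.add_apply]
  conv_rhs => rw [← id_eq F.toPowerSeries, ← subst_self]
  congr 1
  funext i
  fin_cases i <;> rfl

/-- An additive series is a sum of endomorphisms. -/
theorem exists_endos [F.IsComm] [Fintype σ] [DecidableEq σ] (φ : MvPowerSeries σ k)
    (hφ : constantCoeff φ = 0) (hadd : Additive F φ) :
    ∃ ψ : σ → PowerSeries k, (∀ i, IsEndo F (ψ i)) ∧ ∃ b : σ → F.Point σ,
      (∀ i, (b i).val = (ψ i).subst (MvPowerSeries.X i : MvPowerSeries σ k)) ∧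
        (∑ i, b i).val = φ := by
  let ψ : σ → F.Point Unit := fun i => sub F φ hφ (Pi.single i (ptX F ()))
  have key : ∀ {ρ : Type} (i : σ) (a : F.Point ρ),
      (sub F φ hφ (Pi.single i a)).val = PowerSeries.subst a.val ((ψ i).val : PowerSeries k) := by
    intro ρ i a
    have ha : MvPowerSeries.HasSubst fun _ : Unit => a.val :=
      hasSubst_of_constantCoeff_zero fun _ => pt_cc F a
    rw [PowerSeries.subst]
    simp only [ψ, sub, pt_val]
    rw [subst_comp_subst_apply (hasSubst_of_constantCoeff_zero fun j => pt_cc F _) ha]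
    congr 1
    funext j
    by_cases hj : j = i
    · subst hj
      simp [subst_X ha]
    · rw [Pi.single_eq_of_ne hj, Pi.single_eq_of_ne hj, FormalGroup.zero_apply,
        FormalGroup.zero_apply, ← coe_substAlgHom ha, map_zero]
  refine ⟨fun i => (ψ i).val, fun i => ⟨pt_cc F (ψ i), ?_⟩,
    fun i => sub F φ hφ (Pi.single i (ptX F i)), fun i => key i _, ?_⟩
  · have h := congrArg Subtype.val ((subHom F φ hφ hadd).map_add
      (Pi.single i (ptX F (0 : Fin 2))) (Pi.single i (ptX F 1)))
    rw [← Pi.single_add] at h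
    change (sub F φ hφ _).val = (sub F φ hφ _ + sub F φ hφ _).val at h
    have e := key i (ptX F (0 : Fin 2) + ptX F 1)
    rw [x0_add_x1] at e
    refine e.symm.trans (h.trans ?_)
    rw [FormalGroup.add_apply, fadd]
    exact congrArg₂ (fun A B => F.toPowerSeries.subst ![A, B]) (key i (ptX F (0 : Fin 2)))
      (key i (ptX F (1 : Fin 2)))
  · have h := congrArg Subtype.val ((map_sum (subHom (τ := σ) F φ hφ hadd)
      (fun i => Pi.single i (ptX F i)) Finset.univ).symm)
    refine h.trans ?_
    rw [Finset.univ_sum_single]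
    change φ.subst (fun i => (MvPowerSeries.X i : MvPowerSeries σ k)) = φ
    exact congrFun subst_self φ

/-- The inverse series. -/
theorem exists_inverse [F.IsComm] (hFF : FormalFixTarget) :
    ∃ ι : PowerSeries k, IsEndo F ι ∧ ι ≠ 0 ∧
      ∀ (ρ : Type) (a : F.Point ρ), F.toPowerSeries.subst ![a.val, ι.subst a.val] = 0 := by
  classical
  let Φ : Unit → MvPowerSeries (Unit ⊕ Unit) k := fun _ =>
    MvPowerSeries.X (Sum.inr ()) -
      F.toPowerSeries.subst ![MvPowerSeries.X (Sum.inl ()), MvPowerSeries.X (Sum.inr ())]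
  have hcc : ∀ i, constantCoeff (![MvPowerSeries.X (Sum.inl ()), MvPowerSeries.X (Sum.inr ())] i :
      MvPowerSeries (Unit ⊕ Unit) k) = 0 := fun i => by fin_cases i <;> simp
  have hΦ : ∀ j, constantCoeff (Φ j) = 0 ∧
      ∀ i, coeff (Finsupp.single (Sum.inr i) 1) (Φ j) = 0 := fun _ => by
    refine ⟨by simp [Φ, constantCoeff_subst_eq hcc, F.zero_constantCoeff], fun i => ?_⟩
    simp only [Φ, map_sub, coeff_single_subst hcc, Fin.sum_univ_two, F.lin_coeff_X, F.lin_coeff_Y]
    simp [MvPowerSeries.coeff_index_single_X]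
  obtain ⟨X, hX0, hX, -, -⟩ := hFF k Unit Unit Φ hΦ
  let ι : PowerSeries k := X ()
  have hι0 : constantCoeff (X ()) = 0 := hX0 ()
  have hbase : F.toPowerSeries.subst ![(MvPowerSeries.X () : MvPowerSeries Unit k), X ()] = 0 := by
    have hg : ∀ s : Unit ⊕ Unit, constantCoeff
        (Sum.elim (fun i : Unit => (MvPowerSeries.X i : MvPowerSeries Unit k)) X s) = 0 :=
      fun s => by cases s <;> simp [hX0]
    have hs := hasSubst_of_constantCoeff_zero hg
    have h := hX ()
    simp only [Φ, subst_sub hs, subst_X hs, Sum.elim_inr,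
      subst_pair F _ _ (constantCoeff_X _) (constantCoeff_X _) _ hg, Sum.elim_inl] at h
    exact sub_eq_self.1 h
  have hinv : ∀ (ρ : Type) (a : F.Point ρ),
      F.toPowerSeries.subst ![a.val, ι.subst a.val] = 0 := by
    intro ρ a
    have hg : ∀ _ : Unit, constantCoeff a.val = 0 := fun _ => pt_cc F a
    have h := congrArg (MvPowerSeries.subst fun _ : Unit => a.val) hbase
    rw [subst_pair F _ _ (constantCoeff_X _) hι0 _ hg,
      subst_X (hasSubst_of_constantCoeff_zero hg)] at h
    refine h.trans ?_
    rw [← coe_substAlgHom (hasSubst_of_constantCoeff_zero hg)]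
    exact map_zero _
  let neg : ∀ {ρ : Type}, F.Point ρ → F.Point ρ := fun a =>
    pt F (ι.subst a.val) (by
      rw [PowerSeries.subst, constantCoeff_subst_eq (fun _ => pt_cc F a)]; exact hι0)
  have hneg : ∀ {ρ : Type} (a : F.Point ρ), a + neg a = 0 := fun a =>
    Subtype.ext (hinv _ a)
  refine ⟨ι, ⟨hι0, ?_⟩, fun h0 => ?_, hinv⟩
  · have h : neg (ptX F (0 : Fin 2) + ptX F 1) = neg (ptX F 0) + neg (ptX F 1) := by
      refine left_neg_eq_right_neg (a := ptX F (0 : Fin 2) + ptX F 1) ?_ ?_
      · rw [add_comm]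
        exact hneg _
      · rw [add_add_add_comm, hneg, hneg, add_zero]
    have h' := congrArg Subtype.val h
    simp only [neg, pt_val, FormalGroup.add_apply] at h'
    have e := x0_add_x1 F
    rw [FormalGroup.add_apply] at e
    rw [e] at h'
    simpa [fadd] using h'
  · have hT := (congrArg Subtype.val (hneg (ptX F ()))).symm
    have hn : neg (ptX F ()) = 0 := Subtype.ext (by
      simp only [neg, pt_val, h0, FormalGroup.zero_apply]
      change PowerSeries.subst (MvPowerSeries.X () : MvPowerSeries Unit k) (0 : PowerSeries k) = 0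
      rw [← PowerSeries.coe_substAlgHom (PowerSeries.HasSubst.of_constantCoeff_zero
        (constantCoeff_X ())), map_zero])
    rw [hn, add_zero, FormalGroup.zero_apply, ptX_val] at hT
    simpa using congrArg (coeff (Finsupp.single () 1)) hT

end Vale.Agent.P217.NoIdeal

end
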