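import Vale.Agent.P217.NoIdeal.Rel

/-!
# P217: no proper subvariety over the fixed field contains a relation free subgroup
-/

noncomputable section

namespace Vale.Agent.P217.NoIdeal

open MvPowerSeries

variable {p : ℕ} [Fact p.Prime] {C : Type} [NormedField C] [CharP C p] {h : ℕ}
  [IsUltrametricDist C] [CompleteSpace C] (hE : EvalTarget) (hF : FormalFixTarget)
  (hL : LawTarget) (hR : RigidityTarget) (hh : h ≠ 0)

include hE hF hL hR hh

/-- The induction step: a linear term gives a relation. -/
lemma false_of_linear {e : ℕ} {Λ : Set (Fin (e + 1) → C)} (hΛ : IsPts p h Λ)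
    (hrel : NoRel p h Λ)
    (IH : ∀ Λ' : Set (Fin e → C), IsPts p h Λ' → NoRel p h Λ' →
      ∀ H : MvPowerSeries (Fin e) (Fld p C h), Van Λ' H → H = 0)
    {H : MvPowerSeries (Fin (e + 1)) (Fld p C h)} (hH : Van Λ H) {j : Fin (e + 1)}
    (hc : coeff (Finsupp.single j 1) H ≠ 0) : False := by
  classical
  let F := honda p h (Fld p C h)
  have hcomm : F.IsComm := (hL p).1 (Fld p C h) (vHonda h)
  have : (honda p h (Fld p C h)).IsComm := hcomm
  -- solve for the coordinate `j`
  let g : Fin (e + 1) → MvPowerSeries (Fin e ⊕ Unit) (Fld p C h) :=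
    j.insertNth (MvPowerSeries.X (Sum.inr ())) fun i => MvPowerSeries.X (Sum.inl i)
  have hg : ∀ i, constantCoeff (g i) = 0 := fun i => by
    rcases j.eq_self_or_eq_succAbove i with rfl | ⟨l, rfl⟩ <;> simp [g]
  have hH0 : constantCoeff H = 0 := by
    have := hH 0 hΛ.zero_mem
    rw [evk, ev_zero_point] at this
    exact incl.injective (by simpa [liftC] using this)
  let Φ : Unit → MvPowerSeries (Fin e ⊕ Unit) (Fld p C h) := fun _ =>
    MvPowerSeries.X (Sum.inr ()) -
      MvPowerSeries.C (coeff (Finsupp.single j 1) H)⁻¹ * H.subst g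
  have hΦ : ∀ u, constantCoeff (Φ u) = 0 ∧
      ∀ i, coeff (Finsupp.single (Sum.inr i) 1) (Φ u) = 0 := fun _ => by
    refine ⟨by simp [Φ, constantCoeff_subst_eq hg, hH0], fun i => ?_⟩
    have hlin : coeff (Finsupp.single (Sum.inr i : Fin e ⊕ Unit) 1) (H.subst g) =
        coeff (Finsupp.single j 1) H := by
      rw [coeff_single_subst hg, Finset.sum_eq_single j]
      · simp [g]
      · intro l _ hl
        obtain ⟨m, rfl⟩ := (Fin.exists_succAbove_eq hl)
        simp [g, MvPowerSeries.coeff_index_single_X]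
      · simp
    simp [Φ, map_sub, MvPowerSeries.coeff_C_mul, hlin, inv_mul_cancel₀ hc]
  obtain ⟨Xs, hX0, hX, -, -⟩ := hF (Fld p C h) (Fin e) Unit Φ hΦ
  let φ : MvPowerSeries (Fin e) (Fld p C h) := Xs ()
  have hφ0 : constantCoeff φ = 0 := hX0 ()
  have hzj : ∀ z ∈ Λ, evk (fun i => z (j.succAbove i)) φ = z j := by
    intro z hz
    have hsz := hΛ.small z hz
    have hw : Small fun i => z (j.succAbove i) := fun i => hsz _
    have hsu : ∀ x : C, ‖x‖ < 1 →
        Small (Sum.elim (fun i => z (j.succAbove i)) fun _ : Unit => x) := fun x hx s => by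
      cases s
      · exact hsz _
      · exact hx
    refine (congrFun ((hE C).2.2.2.2.1 (Fin e) Unit (fun u => liftC (Φ u))
      (fun u => ⟨intSer_liftC hh _, fun i => by simp [liftC, coeff_map, (hΦ u).2 i]⟩)
      (fun i => z (j.succAbove i)) (fun _ => z j) (fun _ => evk (fun i => z (j.succAbove i)) φ)
      hw (fun _ => hsz j) (fun _ => norm_evk_lt hE hh hw hφ0) (fun u => ?_) (fun u => ?_)) ()).symm
    · change evk _ (Φ u) = z j
      have hgz : (fun i => evk (Sum.elim (fun i => z (j.succAbove i)) fun _ : Unit => z j) (g i))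
          = z := funext fun i => by
        rcases j.eq_self_or_eq_succAbove i with rfl | ⟨l, rfl⟩ <;>
          simp [g, evk_X hE (hsu _ (hsz _))]
      simp only [Φ, evk_sub hE hh (hsu _ (hsz j)), evk_mul hE hh (hsu _ (hsz j)),
        evk_subst hE hh (hsu _ (hsz j)) g hg, hgz, hH z hz, mul_zero, sub_zero,
        evk_X hE (hsu _ (hsz j)), Sum.elim_inr]
    · change evk _ (Φ u) = evk _ φ
      have h1 := congrArg (evk fun i => z (j.succAbove i)) (hX u)
      rw [evk_subst hE hh hw _ (fun s => by cases s <;> simp [hX0])] at h1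
      refine Eq.trans ?_ h1
      congr 1
      funext s
      cases s
      · simp [evk_X hE hw]
      · rfl
  -- the projection
  let Λ' : Set (Fin e → C) := (fun z i => z (j.succAbove i)) '' Λ
  have hΛ' : IsPts p h Λ' := by
    refine ⟨?_, ⟨0, hΛ.zero_mem, rfl⟩, ?_, ?_⟩
    · rintro _ ⟨z, hz, rfl⟩ i
      exact hΛ.small z hz _
    · rintro _ ⟨z, hz, rfl⟩ _ ⟨z', hz', rfl⟩
      exact ⟨_, hΛ.add_mem z hz z' hz', rfl⟩
    · rintro _ ⟨z, hz, rfl⟩
      exact ⟨_, hΛ.pow_mem z hz, rfl⟩
  have hrel' : NoRel p h Λ' := by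
    intro α hα hsum
    have h0 : IsEndo (honda p h (Fld p C h)) (0 : PowerSeries (Fld p C h)) := by
      have hz : ∀ a : MvPowerSeries (Fin 2) (Fld p C h), constantCoeff a = 0 →
          PowerSeries.subst a (0 : PowerSeries (Fld p C h)) = 0 := fun a ha => by
        rw [← PowerSeries.coe_substAlgHom (PowerSeries.HasSubst.of_constantCoeff_zero ha), map_zero]
      refine ⟨map_zero _, ?_⟩
      rw [hz _ (honda p h _).zero_constantCoeff, hz x0 (constantCoeff_X _),
        hz x1 (constantCoeff_X _), fadd, FormalGroup.add_zero _ PowerSeries.HasSubst.zero]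
    let α₁ : Fin (e + 1) → PowerSeries (Fld p C h) := j.insertNth 0 α
    have hα₁ : ∀ i, IsEndo (honda p h (Fld p C h)) (α₁ i) := fun i => by
      rcases j.eq_self_or_eq_succAbove i with rfl | ⟨l, rfl⟩
      · simpa [α₁] using h0
      · simpa [α₁] using hα l
    intro i
    have h2 := hrel α₁ hα₁ (fun z hz => ?_) (j.succAbove i)
    · simpa [α₁] using h2
    have hw : Small fun i => z (j.succAbove i) := fun i => hΛ.small z hz _
    let b : Fin e → F.Point (Fin e) := fun i => pt F
      (PowerSeries.subst (MvPowerSeries.X i : MvPowerSeries (Fin e) (Fld p C h)) (α i))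
      (by rw [PowerSeries.subst, constantCoeff_subst_eq fun _ => constantCoeff_X i]; exact (hα i).1)
    have hb : ∀ i, evk (fun i => z (j.succAbove i)) (b i).val
        = evk (fun _ : Unit => z (j.succAbove i)) (α i) := fun i => by
      simp only [b, pt_val, PowerSeries.subst]
      rw [evk_subst hE hh hw _ fun _ => constantCoeff_X i, funext fun _ => evk_X hE hw i]
    let a : Fin (e + 1) → F.Point (Fin e) := j.insertNth 0 b
    have ha : ∀ i, evk (fun _ : Unit => z i) (α₁ i)
        = evk (fun i => z (j.succAbove i)) (a i).val := fun i => by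
      rcases j.eq_self_or_eq_succAbove i with rfl | ⟨l, rfl⟩
      · simp [a, α₁, evk_zero hE hh hw, evk_zero hE hh (fun _ : Unit => hΛ.small z hz _)]
      · simp [a, α₁, hb l]
    have hsum' := hsum _ ⟨z, hz, rfl⟩
    simp only [funext ha, psum_evk hE hh hw]
    simp only [← hb, psum_evk hE hh hw] at hsum'
    rw [Fin.sum_univ_succAbove a j]
    simpa [a] using hsum'
  have hK := IH Λ' hΛ' hrel'
  -- `φ` is additive
  have hX' : ∀ (s : Fin e → Fin e ⊕ Fin e) (i : Fin e), constantCoeff
      (MvPowerSeries.X (s i) : MvPowerSeries (Fin e ⊕ Fin e) (Fld p C h)) = 0 :=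
    fun s i => constantCoeff_X _
  have hadd : Additive F φ := by
    refine sub_eq_zero.1 (prod_eq_zero hE hR hh hΛ' hK _ ?_)
    rintro _ ⟨z, hz, rfl⟩ _ ⟨z', hz', rfl⟩
    have hw : Small fun i => z (j.succAbove i) := fun i => hΛ.small z hz _
    have hw' : Small fun i => z' (j.succAbove i) := fun i => hΛ.small z' hz' _
    have hs : Small (Sum.elim (fun i => z (j.succAbove i)) fun i => z' (j.succAbove i)) :=
      fun s => by cases s <;> simp [hw _, hw' _]
    rw [evk_sub hE hh hs, sub_eq_zero,
      evk_subst hE hh hs _ (fun i => by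
        rw [constantCoeff_subst_eq fun l => by fin_cases l <;> simp, F.zero_constantCoeff]),
      evk_pair hE hh F hs _ _ (by rw [constantCoeff_subst_eq (hX' Sum.inl), hφ0])
        (by rw [constantCoeff_subst_eq (hX' Sum.inr), hφ0]),
      evk_subst hE hh hs _ (hX' Sum.inl), evk_subst hE hh hs _ (hX' Sum.inr), honda_map]
    have e1 : ∀ i, evk (Sum.elim (fun i => z (j.succAbove i)) fun i => z' (j.succAbove i))
        (F.toPowerSeries.subst ![MvPowerSeries.X (Sum.inl i), MvPowerSeries.X (Sum.inr i)])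
        = padd (honda p h C) (z (j.succAbove i)) (z' (j.succAbove i)) := fun i => by
      rw [evk_pair hE hh F hs _ _ (constantCoeff_X _) (constantCoeff_X _), evk_X hE hs,
        evk_X hE hs, honda_map]
      rfl
    simp only [e1, evk_X hE hs, Sum.elim_inl, Sum.elim_inr, hzj z hz, hzj z' hz']
    exact hzj _ (hΛ.add_mem z hz z' hz')
  -- the relation
  obtain ⟨ψ, hψ, b, hb, hbsum⟩ := exists_endos F φ hφ0 hadd
  obtain ⟨ι, hι, hι0, hinv⟩ := exists_inverse F hF
  let α : Fin (e + 1) → PowerSeries (Fld p C h) := j.insertNth ι ψ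
  have hα : ∀ i, IsEndo (honda p h (Fld p C h)) (α i) := fun i => by
    rcases j.eq_self_or_eq_succAbove i with rfl | ⟨l, rfl⟩
    · simpa [α] using hι
    · simpa [α] using hψ l
  let φp : F.Point (Fin e) := pt F φ hφ0
  let a : Fin (e + 1) → F.Point (Fin e) := j.insertNth
    (pt F (PowerSeries.subst φ ι)
      (by rw [PowerSeries.subst, constantCoeff_subst_eq fun _ => hφ0]; exact hι.1)) b
  suffices hs : ∀ z ∈ Λ, psum (honda p h C) (fun i => evk (fun _ : Unit => z i) (α i)) = 0 by
    exact hι0 (by simpa [α] using hrel α hα hs j)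
  intro z hz
  have hw : Small fun i => z (j.succAbove i) := fun i => hΛ.small z hz _
  have ha : ∀ i, evk (fun _ : Unit => z i) (α i)
      = evk (fun i => z (j.succAbove i)) (a i).val := fun i => by
    rcases j.eq_self_or_eq_succAbove i with rfl | ⟨l, rfl⟩
    · simp only [a, α, Fin.insertNth_apply_same, pt_val, PowerSeries.subst]
      rw [evk_subst hE hh hw _ fun _ => hφ0, hzj z hz]
    · simp only [a, α, Fin.insertNth_apply_succAbove, hb, PowerSeries.subst]
      rw [evk_subst hE hh hw _ fun _ => constantCoeff_X l, funext fun _ => evk_X hE hw l]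
  simp only [funext ha, psum_evk hE hh hw]
  have hsum0 : ∑ i, a i = 0 := by
    rw [Fin.sum_univ_succAbove a j, add_comm]
    apply Subtype.ext
    simp only [a, Fin.insertNth_apply_same, Fin.insertNth_apply_succAbove, FormalGroup.add_apply,
      hbsum, pt_val, FormalGroup.zero_apply]
    exact hinv _ φp
  rw [hsum0]
  exact evk_zero hE hh hw

/-- The induction. -/
theorem eq_zero_of_van : ∀ (d : ℕ) (Λ : Set (Fin d → C)), IsPts p h Λ → NoRel p h Λ →
    ∀ H : MvPowerSeries (Fin d) (Fld p C h), Van Λ H → H = 0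
  | 0, _, hΛ, _ => eq_zero_of_no_linear hE hR hh hΛ fun _ _ i => i.elim0
  | e + 1, Λ, hΛ, hrel =>
    eq_zero_of_no_linear hE hR hh hΛ fun H hH j => by
      by_contra hc
      exact false_of_linear hE hF hL hR hh hΛ hrel
        (fun Λ' h1 h2 => eq_zero_of_van e Λ' h1 h2) hH hc

end Vale.Agent.P217.NoIdeal

end
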