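import Vale.Agent.P217.NoIdeal.Chain
import Vale.Agent.P217.Rigidity.Detect
import Vale.Agent.P217.Targets

/-!
# P217: series over the fixed subfield and their values
-/

noncomputable section

namespace Vale.Agent.P217.NoIdeal

open MvPowerSeries

section Natural

variable (p h : ℕ)

lemma law_map {A B : Type*} [CommRing A] [CommRing B] (f : A →+* B) (v : ℕ → A) :
    (law p v).map f = law p fun i => f (v i) := by
  have hf : f.comp (MvPolynomial.aeval v : MvPolynomial ℕ ℤ →ₐ[ℤ] A).toRingHom
      = (MvPolynomial.aeval (fun i => f (v i)) : MvPolynomial ℕ ℤ →ₐ[ℤ] B).toRingHom :=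
    MvPolynomial.ringHom_ext (fun r => by simp) (fun i => by simp)
  refine FormalGroup.ext ?_
  simp only [law, FormalGroup.map_toPowerSeries, ← hf]
  rw [MvPowerSeries.map_comp]
  rfl

lemma honda_map {A B : Type*} [CommRing A] [CommRing B] (f : A →+* B) :
    (honda p h A).map f = honda p h B := by
  rw [honda, law_map, honda]
  congr 1
  funext i
  simp [vHonda, apply_ite f]

end Natural

variable {p : ℕ} [Fact p.Prime] {C : Type} [NormedField C] [CharP C p] {h : ℕ}

variable (C p h) in
/-- The elements fixed by `x ↦ x ^ (p ^ h)`. -/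
abbrev Fld : Subfield C := (iterateFrobenius C p h).eqLocusField (RingHom.id C)

lemma mem_Fld {x : C} : x ∈ Fld p C h ↔ x ^ p ^ h = x := by
  rw [RingHom.mem_eqLocusField, iterateFrobenius_def, RingHom.id_apply]

lemma finite_Fld (hh : h ≠ 0) : Finite (Fld p C h) := by
  have hp : p.Prime := Fact.out
  have hq : 2 ≤ p ^ h := hp.two_le.trans (Nat.le_self_pow hh p)
  have hne : (Polynomial.X ^ p ^ h - Polynomial.X : Polynomial C) ≠ 0 := by
    intro h0
    have := congrArg (fun P => Polynomial.coeff P (p ^ h)) h0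
    simp [Polynomial.coeff_X_pow, Polynomial.coeff_X, show 1 ≠ p ^ h by omega] at this
  refine Set.Finite.to_subtype ((Polynomial.finite_setOfPred_isRoot hne).subset fun x hx => ?_)
  rw [SetLike.mem_coe, mem_Fld] at hx
  simp [hx]

lemma perfect_Fld (hh : h ≠ 0) : PerfectRing (Fld p C h) p := by
  have := finite_Fld (p := p) (C := C) hh
  exact PerfectField.toPerfectRing p

/-- The inclusion of the fixed subfield. -/
abbrev incl : Fld p C h →+* C := (Fld p C h).subtype

lemma norm_incl_le (hh : h ≠ 0) (a : Fld p C h) : ‖incl a‖ ≤ 1 :=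
  Rigidity.norm_le_one_of_fixed ((Fact.out : p.Prime).two_le.trans (Nat.le_self_pow hh p))
    (mem_Fld.1 a.2)

variable {σ τ : Type}

/-- A series over the fixed subfield seen over `C`. -/
abbrev liftC (f : MvPowerSeries σ (Fld p C h)) : MvPowerSeries σ C := MvPowerSeries.map incl f

lemma intSer_liftC (hh : h ≠ 0) (f : MvPowerSeries σ (Fld p C h)) : IntSer (liftC f) :=
  fun d => by simpa [coeff_map] using norm_incl_le hh (coeff d f)

/-- Values of series over the fixed subfield. -/
def evk (z : σ → C) (f : MvPowerSeries σ (Fld p C h)) : C := ev z (liftC f)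

omit [Fact p.Prime] [CharP C p] in
lemma ev_zero_point (f : MvPowerSeries σ C) : ev (0 : σ → C) f = constantCoeff f := by
  rw [ev, tsum_eq_single 0]
  · simp [mon]
  · intro d hd
    obtain ⟨i, hi⟩ := Finsupp.support_nonempty_iff.2 hd
    rw [mon, Finsupp.prod, Finset.prod_eq_zero hi (by simp [Finsupp.mem_support_iff.1 hi]), mul_zero]

lemma small_pow_mem {d q : ℕ} {Λ : Set (Fin d → C)}
    (hst : ∀ z ∈ Λ, (fun i => z i ^ q) ∈ Λ) {z : Fin d → C} (hz : z ∈ Λ) :
    ∀ N : ℕ, (fun i => z i ^ q ^ N) ∈ Λ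
  | 0 => by simpa using hz
  | N + 1 => by
    have := hst _ (small_pow_mem hst hz N)
    simpa [← pow_mul, ← pow_succ] using this

variable [IsUltrametricDist C] [CompleteSpace C] (hE : EvalTarget) (hh : h ≠ 0)
variable [Fintype σ] [Fintype τ]

include hE hh

lemma evk_add {z : σ → C} (hz : Small z) (f g : MvPowerSeries σ (Fld p C h)) :
    evk z (f + g) = evk z f + evk z g := by
  simpa [evk, liftC] using
    ((hE C).1 σ z _ _ hz (intSer_liftC hh f) (intSer_liftC hh g)).2.2.2.1

lemma evk_mul {z : σ → C} (hz : Small z) (f g : MvPowerSeries σ (Fld p C h)) :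
    evk z (f * g) = evk z f * evk z g := by
  simpa [evk, liftC] using
    ((hE C).1 σ z _ _ hz (intSer_liftC hh f) (intSer_liftC hh g)).2.2.2.2.1

omit hh in
lemma evk_C {z : σ → C} (hz : Small z) (c : Fld p C h) : evk z (MvPowerSeries.C c) = (c : C) := by
  rcases isEmpty_or_nonempty σ with hσ | hσ
  · rw [evk, Subsingleton.elim z 0, ev_zero_point]
    simp [liftC]
  · simpa [evk, liftC] using ((hE C).2.1 σ z (c : C) (Classical.arbitrary σ) hz).1

omit hh in
lemma evk_X {z : σ → C} (hz : Small z) (i : σ) :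
    evk z (MvPowerSeries.X i : MvPowerSeries σ (Fld p C h)) = z i := by
  simpa [evk, liftC] using ((hE C).2.1 σ z 0 i hz).2

/-- Evaluation as a ring homomorphism. -/
def evHom {z : σ → C} (hz : Small z) : MvPowerSeries σ (Fld p C h) →+* C :=
  RingHom.mk'
    { toFun := evk z
      map_one' := by simpa using evk_C hE hz (1 : Fld p C h)
      map_mul' := evk_mul hE hh hz }
    (evk_add hE hh hz)

lemma evk_zero {z : σ → C} (hz : Small z) : evk z (0 : MvPowerSeries σ (Fld p C h)) = 0 :=
  map_zero (evHom hE hh hz)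

lemma evk_sub {z : σ → C} (hz : Small z) (f g : MvPowerSeries σ (Fld p C h)) :
    evk z (f - g) = evk z f - evk z g :=
  map_sub (evHom hE hh hz) f g

lemma norm_evk_lt {z : σ → C} (hz : Small z) {f : MvPowerSeries σ (Fld p C h)}
    (hf : constantCoeff f = 0) : ‖evk z f‖ < 1 := by
  classical
  let r := Finset.univ.fold max (0 : ℝ) fun i => ‖z i‖
  have hr : (0 : ℝ) ≤ r ∧ ∀ i ∈ Finset.univ, ‖z i‖ ≤ r := Finset.fold_max_le r |>.1 le_rfl
  have hr1 : r < 1 := Finset.fold_max_lt 1 |>.2 ⟨one_pos, fun i _ => hz i⟩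
  refine lt_of_le_of_lt ?_ hr1
  exact ((hE C).1 σ z _ (liftC f) hz (intSer_liftC hh f) (intSer_liftC hh f)).2.2.2.2.2.2.1
    (by simp [liftC, hf]) r hr.1 fun i => hr.2 i (Finset.mem_univ i)

lemma evk_subst {y : τ → C} (hy : Small y) (g : σ → MvPowerSeries τ (Fld p C h))
    (hg : ∀ i, constantCoeff (g i) = 0) (f : MvPowerSeries σ (Fld p C h)) :
    evk y (f.subst g) = evk (fun i => evk y (g i)) f := by
  have hs : HasSubst g := hasSubst_of_constantCoeff_zero hg
  have := ((hE C).2.2.1 σ τ (fun i => liftC (g i)) (liftC f) y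
    (fun i => ⟨intSer_liftC hh _, by simp [liftC, hg i]⟩) (intSer_liftC hh f) hy).2
  rw [evk, liftC, map_subst hs]
  exact this

lemma evk_pair (F : FormalGroup (Fld p C h)) {z : σ → C} (hz : Small z)
    (a b : MvPowerSeries σ (Fld p C h)) (ha : constantCoeff a = 0) (hb : constantCoeff b = 0) :
    evk z (F.toPowerSeries.subst ![a, b]) = padd (F.map incl) (evk z a) (evk z b) := by
  rw [evk_subst hE hh hz _ (fun i => by fin_cases i <;> simpa)]
  rw [padd, evk]
  congr 1
  funext i
  fin_cases i <;> rfl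

end Vale.Agent.P217.NoIdeal

end
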