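import Vale.Agent.P217.NoIdeal.Points
import Vale.Agent.P217.NoIdeal.Formal
import Vale.Agent.P217.Cartier

/-!
# P217: subsets of points closed under addition, and two vanishing lemmas
-/

noncomputable section

namespace Vale.Agent.P217.NoIdeal

open MvPowerSeries Filter

variable {p : ℕ} [Fact p.Prime] {C : Type} [NormedField C] [CharP C p] {h : ℕ} {d : ℕ}

/-- A `q`-stable submonoid of the open polydisc with the addition of the Honda law. -/
structure IsPts (p h : ℕ) (Λ : Set (Fin d → C)) : Prop where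
  small : ∀ z ∈ Λ, Small z
  zero_mem : (0 : Fin d → C) ∈ Λ
  add_mem : ∀ z ∈ Λ, ∀ z' ∈ Λ, (fun i => padd (honda p h C) (z i) (z' i)) ∈ Λ
  pow_mem : ∀ z ∈ Λ, (fun i => z i ^ p ^ h) ∈ Λ

/-- No relations by endomorphisms defined over the fixed subfield. -/
def NoRel (p h : ℕ) [Fact p.Prime] [CharP C p] (Λ : Set (Fin d → C)) : Prop :=
  ∀ α : Fin d → PowerSeries (Fld p C h), (∀ i, IsEndo (honda p h (Fld p C h)) (α i)) →
    (∀ z ∈ Λ, psum (honda p h C) (fun i => evk (fun _ : Unit => z i) (α i)) = 0) → ∀ i, α i = 0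

/-- The series over the fixed subfield vanishing on `Λ`. -/
def Van (Λ : Set (Fin d → C)) (H : MvPowerSeries (Fin d) (Fld p C h)) : Prop :=
  ∀ z ∈ Λ, evk z H = 0

/-- The coefficient of `Y ^ b`, as a series in the first group of variables. -/
def slice {σ τ R : Type} [CommRing R] (b : τ →₀ ℕ) (G : MvPowerSeries (σ ⊕ τ) R) :
    MvPowerSeries σ R :=
  fun a => coeff (Finsupp.sumFinsuppEquivProdFinsupp.symm (a, b)) G

lemma coeff_slice {σ τ R : Type} [CommRing R] (b : τ →₀ ℕ) (G : MvPowerSeries (σ ⊕ τ) R)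
    (a : σ →₀ ℕ) :
    coeff a (slice b G) = coeff (Finsupp.sumFinsuppEquivProdFinsupp.symm (a, b)) G := rfl

lemma coeff_evLeft {σ τ : Type} (x : σ → C) (G : MvPowerSeries (σ ⊕ τ) (Fld p C h))
    (b : τ →₀ ℕ) : coeff b (evLeft x (liftC G)) = evk x (slice b G) :=
  tsum_congr fun a => by simp [liftC, coeff_map, coeff_slice]

variable [IsUltrametricDist C] [CompleteSpace C] (hE : EvalTarget) (hR : RigidityTarget)
  (hh : h ≠ 0)

include hR hh in
lemma coeff_eq_zero_of_vanishC {Λ : Set (Fin d → C)} (hΛ : IsPts p h Λ) (β : Fin d →₀ ℕ)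
    (hβ : ∀ H : MvPowerSeries (Fin d) (Fld p C h), Van Λ H → coeff β H = 0)
    (G : MvPowerSeries (Fin d) C) (hG : IntSer G) (hv : ∀ z ∈ Λ, ev z G = 0) :
    coeff β G = 0 := by
  obtain ⟨S, hS, ε, hε, -, key⟩ :=
    hR p C h d (by omega) Λ hΛ.small β fun H hfix hH => by
      let H' : MvPowerSeries (Fin d) (Fld p C h) := fun a => ⟨coeff a H, mem_Fld.2 (hfix a)⟩
      have e : liftC H' = H := MvPowerSeries.ext fun a => by
        simp [liftC, coeff_map]; rfl
      have := hβ H' fun z hz => by rw [evk, e]; exact hH z hz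
      simpa [← e, liftC, coeff_map] using congrArg (incl (p := p) (h := h) (C := C)) this
  refine key G 1 1 (fun a => by simpa using hG a) fun z hz => Eventually.of_forall fun N => ?_
  rw [hv _ (small_pow_mem hΛ.pow_mem (hS hz) N), norm_zero]
  positivity

include hE hR hh in
/-- Series in two groups of variables vanishing on `Λ × Λ`. -/
lemma prod_eq_zero {Λ : Set (Fin d → C)} (hΛ : IsPts p h Λ)
    (hK : ∀ H : MvPowerSeries (Fin d) (Fld p C h), Van Λ H → H = 0)
    (G : MvPowerSeries (Fin d ⊕ Fin d) (Fld p C h))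
    (hv : ∀ x ∈ Λ, ∀ y ∈ Λ, evk (Sum.elim x y) G = 0) : G = 0 := by
  classical
  ext D
  obtain ⟨⟨a, b⟩, rfl⟩ := Finsupp.sumFinsuppEquivProdFinsupp.symm.surjective D
  rw [map_zero, ← coeff_slice, hK (slice b G) fun x hx => ?_, map_zero]
  obtain ⟨h1, h2, -⟩ :=
    (hE C).2.2.2.1 (Fin d) (Fin d) (liftC G) x (intSer_liftC hh G) (hΛ.small x hx)
  rw [← coeff_evLeft]
  exact coeff_eq_zero_of_vanishC hR hh hΛ b (fun H hH => by rw [hK H hH, map_zero]) _ h1
    fun y hy => by rw [h2 y (hΛ.small y hy)]; exact hv x hx y hy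

include hE hh in
lemma psum_evk {σ : Type} [Fintype σ] {z : σ → C} (hz : Small z) : ∀ {m : ℕ}
    [(honda p h (Fld p C h)).IsComm] (a : Fin m → (honda p h (Fld p C h)).Point σ),
    psum (honda p h C) (fun i => evk z (a i).val) = evk z (∑ i, a i).val
  | 0, _, a => by
    rw [Finset.univ_eq_empty, Finset.sum_empty, FormalGroup.zero_apply, evk_zero hE hh hz, psum]
  | m + 1, _, a => by
    rw [Fin.sum_univ_succ, FormalGroup.add_apply,
      evk_pair hE hh _ hz _ _ (pt_cc _ _) (pt_cc _ _), honda_map, psum,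
      psum_evk hz fun i => a i.succ]

include hE hh in
lemma padd_zero_right {a : C} (ha : ‖a‖ < 1) : padd (honda p h C) a 0 = a := by
  have hz : Small fun _ : Unit => a := fun _ => ha
  have h0 := evk_pair hE hh (honda p h (Fld p C h)) hz (MvPowerSeries.X ()) 0
    (constantCoeff_X _) (map_zero _)
  rw [FormalGroup.add_zero (honda p h (Fld p C h))
      (PowerSeries.HasSubst.of_constantCoeff_zero (constantCoeff_X _)),
    evk_X hE hz, evk_zero hE hh hz, honda_map] at h0
  exact h0.symm

include hE hR hh in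
/-- Without linear terms, only zero vanishes on `Λ`. -/
lemma eq_zero_of_no_linear {Λ : Set (Fin d → C)} (hΛ : IsPts p h Λ)
    (hlin : ∀ H : MvPowerSeries (Fin d) (Fld p C h), Van Λ H →
      ∀ i, coeff (Finsupp.single i 1) H = 0)
    (H₀ : MvPowerSeries (Fin d) (Fld p C h)) (hH₀ : Van Λ H₀) : H₀ = 0 := by
  classical
  let I : Ideal (MvPowerSeries (Fin d) (Fld p C h)) :=
    { carrier := {H | Van Λ H}
      add_mem' := fun {f g} hf hg z hz => by
        rw [evk_add hE hh (hΛ.small z hz), hf z hz, hg z hz, add_zero]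
      zero_mem' := fun z hz => evk_zero hE hh (hΛ.small z hz)
      smul_mem' := fun c f hf z hz => by
        rw [smul_eq_mul, evk_mul hE hh (hΛ.small z hz), hf z hz, mul_zero] }
  have hrad : I.IsRadical := fun f ⟨m, hm⟩ z hz => by
    have h := hm z hz
    change evHom hE hh (hΛ.small z hz) (f ^ m) = 0 at h
    rw [map_pow] at h
    exact eq_zero_of_pow_eq_zero h
  have htop : I ≠ ⊤ := fun e => by
    have h1 : (1 : MvPowerSeries (Fin d) (Fld p C h)) ∈ I := e ▸ Submodule.mem_top
    exact one_ne_zero ((map_one (evHom hE hh (hΛ.small 0 hΛ.zero_mem))).symm.trans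
      (h1 0 hΛ.zero_mem))
  have hder : ∀ j, ∀ H ∈ I, pderiv (Fld p C h) j H ∈ I := by
    intro j H hH z hz
    let F := honda p h (Fld p C h)
    let Ψ : Fin d → MvPowerSeries (Fin d ⊕ Fin d) (Fld p C h) := fun i =>
      F.toPowerSeries.subst ![MvPowerSeries.X (Sum.inl i), MvPowerSeries.X (Sum.inr i)]
    have hc : ∀ (i : Fin d) l, constantCoeff ((![MvPowerSeries.X (Sum.inl i),
        MvPowerSeries.X (Sum.inr i)] : Fin 2 → MvPowerSeries (Fin d ⊕ Fin d) (Fld p C h)) l) = 0 :=
      fun i l => by fin_cases l <;> simp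
    have hΨ : ∀ i, constantCoeff (Ψ i) = 0 := fun i => by
      rw [constantCoeff_subst_eq (hc i), F.zero_constantCoeff]
    have hsz : Small z := hΛ.small z hz
    have hval : ∀ y : Fin d → C, Small y → ∀ i,
        evk (Sum.elim z y) (Ψ i) = padd (honda p h C) (z i) (y i) := fun y hy i => by
      have hs : Small (Sum.elim z y) := fun s => by cases s <;> simp [hsz _, hy _]
      rw [evk_pair hE hh F hs _ _ (constantCoeff_X _) (constantCoeff_X _), evk_X hE hs,
        evk_X hE hs, honda_map]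
      rfl
    obtain ⟨h1, h2, -, h4⟩ :=
      (hE C).2.2.2.1 (Fin d) (Fin d) (liftC (H.subst Ψ)) z (intSer_liftC hh _) hsz
    have h0 : coeff (Finsupp.single j 1) (evLeft z (liftC (H.subst Ψ))) = 0 :=
      coeff_eq_zero_of_vanishC hR hh hΛ _ (fun G hG => hlin G hG j) _ h1 fun y hy => by
        have hsy : Small y := hΛ.small y hy
        have hs : Small (Sum.elim z y) := fun s => by cases s <;> simp [hsz _, hsy _]
        rw [h2 y hsy]
        change evk _ (H.subst Ψ) = 0
        rw [evk_subst hE hh hs _ hΨ, funext (hval y hsy)]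
        exact hH _ (hΛ.add_mem z hz y hy)
    rw [h4 j, pderiv_map] at h0
    change evk (Sum.elim z fun _ => 0) (pderiv (Fld p C h) (Sum.inr j) (H.subst Ψ)) = 0 at h0
    have hu : pderiv (Fld p C h) (Sum.inr j) (H.subst Ψ) =
        (pderiv (Fld p C h) j H).subst Ψ * (pderiv (Fld p C h) 1 F.toPowerSeries).subst
          ![MvPowerSeries.X (Sum.inl j), MvPowerSeries.X (Sum.inr j)] := by
      rw [pderiv_subst hΨ, Finset.sum_eq_single j]
      · simp [Ψ, pderiv_subst (hc j), Fin.sum_univ_two]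
      · intro i _ hij
        simp [Ψ, pderiv_subst (hc i), Fin.sum_univ_two, pderiv_X, Ne.symm hij]
      · simp
    have hs0 : Small (Sum.elim z fun _ : Fin d => (0 : C)) := fun s => by
      cases s <;> simp [hsz _]
    rw [hu, evk_mul hE hh hs0] at h0
    rcases mul_eq_zero.1 h0 with e | e
    · rw [evk_subst hE hh hs0 _ hΨ, funext (hval _ fun _ => by simp)] at e
      simpa [padd_zero_right hE hh (hsz _)] using e
    · exfalso
      rw [evk_subst hE hh hs0 _ (hc j)] at e
      have hpt : Small fun l : Fin 2 => evk (Sum.elim z fun _ : Fin d => (0 : C))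
          ((![MvPowerSeries.X (Sum.inl j), MvPowerSeries.X (Sum.inr j)] :
            Fin 2 → MvPowerSeries (Fin d ⊕ Fin d) (Fld p C h)) l) := fun l =>
        norm_evk_lt hE hh hs0 (hc j l)
      have hlt := norm_evk_lt hE hh hpt (f := pderiv (Fld p C h) 1 F.toPowerSeries - 1) (by
        rw [map_sub, ← coeff_single_one, F.lin_coeff_Y, map_one, sub_self])
      rw [evk_sub hE hh hpt, e, zero_sub, norm_neg] at hlt
      change ‖evHom hE hh hpt 1‖ < 1 at hlt
      rw [map_one, norm_one] at hlt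
      exact lt_irrefl _ hlt
  have := perfect_Fld (p := p) (C := C) hh
  rcases Cartier.eq_bot_or_eq_top (p := p) hrad hder with hI | hI
  · exact (Submodule.mem_bot (R := MvPowerSeries (Fin d) (Fld p C h))).1 (hI ▸ (hH₀ : H₀ ∈ I))
  · exact absurd hI htop

end Vale.Agent.P217.NoIdeal

end
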