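import Vale.Agent.P217.NoIdeal.Main
import Vale.Agent.P217.Rigidity.Target

/-!
# P217: the target on proper subvarieties
-/

noncomputable section

namespace Vale.Agent.P217

open MvPowerSeries

/-- No proper subvariety over the fixed field contains a relation free subgroup. -/
theorem noIdealTarget (hE : EvalTarget) (hF : FormalFixTarget) (hL : LawTarget) :
    NoIdealTarget := by
  intro p _ C _ _ _ _ _ h d hh Λ hsmall hzero hadd hpow hrel H hfix hv
  have hh' : h ≠ 0 := by omega
  let H' : MvPowerSeries (Fin d) (NoIdeal.Fld p C h) :=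
    fun a => ⟨coeff a H, NoIdeal.mem_Fld.2 (hfix a)⟩
  have e : NoIdeal.liftC H' = H := MvPowerSeries.ext fun a => by
    simp [NoIdeal.liftC, coeff_map]; rfl
  have hrel' : NoIdeal.NoRel p h Λ := by
    intro α hα hsum i
    have hendo : ∀ i, IsEndo (honda p h C) (PowerSeries.map NoIdeal.incl (α i)) := fun i => by
      obtain ⟨h0, h1⟩ := hα i
      have hs0 : PowerSeries.HasSubst (honda p h (NoIdeal.Fld p C h)).toPowerSeries :=
        PowerSeries.HasSubst.of_constantCoeff_zero (FormalGroup.zero_constantCoeff _)
      have hx : ∀ l : Fin 2, PowerSeries.HasSubst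
          (MvPowerSeries.X l : MvPowerSeries (Fin 2) (NoIdeal.Fld p C h)) := fun l =>
        PowerSeries.HasSubst.of_constantCoeff_zero (constantCoeff_X _)
      refine ⟨by
        rw [← PowerSeries.coeff_zero_eq_constantCoeff_apply, PowerSeries.coeff_map,
          PowerSeries.coeff_zero_eq_constantCoeff_apply, h0, map_zero], ?_⟩
      have h2 := congrArg (MvPowerSeries.map (NoIdeal.incl (p := p) (C := C) (h := h))) h1
      rw [PowerSeries.map_subst hs0, fadd, map_subst] at h2
      · rw [← NoIdeal.honda_map p h (NoIdeal.incl (p := p) (C := C) (h := h))]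
        simp only [FormalGroup.map_toPowerSeries, fadd]
        refine h2.trans ?_
        congr 1
        funext l
        fin_cases l <;> simp [PowerSeries.map_subst (hx _)]
      · refine hasSubst_of_constantCoeff_zero fun l => ?_
        fin_cases l <;>
          simp [PowerSeries.subst, NoIdeal.constantCoeff_subst_eq] <;> exact h0
    have h3 := hrel _ hendo (fun z hz => hsum z hz) i
    refine PowerSeries.map_injective _ NoIdeal.incl.injective ?_
    rw [h3, map_zero]
  have := NoIdeal.eq_zero_of_van hE hF hL rigidityTarget hh' d Λ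
    ⟨hsmall, hzero, hadd, hpow⟩ hrel' H' fun z hz => by rw [NoIdeal.evk, e]; exact hv z hz
  rw [← e, this, NoIdeal.liftC, map_zero]

end Vale.Agent.P217

end
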